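import Vale.Agent.P267.H998.Stmt
import Mathlib.Geometry.Manifold.MFDeriv.Atlas
import Mathlib.Geometry.Manifold.MFDeriv.FDeriv

/-!
# P267: the compact statement implies the working one
-/

open scoped Manifold ContDiff Topology
open Vale.Agent.P272.K

noncomputable section

namespace Vale.Agent.P267.H998

variable {X : Type*} [TopologicalSpace X] [ChartedSpace (Cm 2) X]

theorem pullForm_zero {k : ℕ} (f : Cm 2 → X) (z : Cm 2) :
    pullForm f (0 : RForm k X) z = 0 := by
  ext v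
  rfl

theorem closed_iff {k : ℕ} (a : RForm k X) : Closed a ↔ ClosedForm a := by
  constructor
  · intro h e he z hz
    rw [pullForm_zero]
    exact h e he z hz
  · intro h e he z hz
    rw [h e he z hz, pullForm_zero]

theorem sum_aux {k n : ℕ} (t : Fin n → ℝ) (a : Fin n → (Cm 2 [⋀^Fin k]→L[ℝ] ℝ)) (v : Fin k → Cm 2) :
    (∑ i, t i • a i) v = ∑ i, t i * a i v := by
  simp

theorem isComb_iff {k n : ℕ} (c d : RForm k X) (t : Fin n → ℝ) (a : Fin n → RForm k X) :
    IsComb c d t a ↔ d = c - ∑ i, t i • a i := by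
  have key : ∀ (x : X) (v : Fin k → Cm 2),
      (c - ∑ i, t i • a i : RForm k X) x v = val c x v - ∑ i, t i * val (a i) x v := by
    intro x v
    have h1 : (c - ∑ i, t i • a i : RForm k X) x = c x - ∑ i, t i • a i x := by
      simp
    rw [h1]
    have h2 : (c x - ∑ i, t i • a i x) v = c x v - (∑ i, t i • a i x) v := rfl
    rw [h2]
    congr 1
    exact sum_aux (fun i => t i) (fun i => a i x) v
  constructor
  · intro h
    funext x
    ext v
    have h1 := h x v
    have h2 := key x v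
    have h3 : d x v = val d x v := rfl
    rw [h3, h2, h1]
    ring
  · intro h x v
    have h2 := key x v
    have h3 : val d x v = d x v := rfl
    rw [h3, h, h2]
    ring

theorem bettiSucc_iff (k n : ℕ) : BettiSucc X k n ↔ Vale.Agent.P267.BettiSucc X k n := by
  have key : ∀ (c : RForm (k + 1) X) (a : Fin n → RForm (k + 1) X) (t : Fin n → ℝ),
      (∃ d : RForm (k + 1) X, ExactForm d ∧ IsComb c d t a) ↔ ExactForm (c - ∑ i, t i • a i) := by
    intro c a t
    constructor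
    · rintro ⟨d, hd, h⟩
      rwa [(isComb_iff c d t a).1 h] at hd
    · intro h
      exact ⟨_, h, (isComb_iff c _ t a).2 rfl⟩
  unfold BettiSucc Vale.Agent.P267.BettiSucc
  simp only [closed_iff, key]

theorem dz_eq {g : Cm 2 → ℂ} {z : Cm 2} (h : DifferentiableAt ℂ g z) (j : Fin 2) :
    dz j g z = fderiv ℂ g z (Pi.single j 1) := by
  have h1 : fderiv ℝ g z = (fderiv ℂ g z).restrictScalars ℝ := h.fderiv_restrictScalars ℝ
  have h2 : (Pi.single j Complex.I : Cm 2) = Complex.I • (Pi.single j 1 : Cm 2) := by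
    rw [← Pi.single_smul, smul_eq_mul, mul_one]
  unfold dz
  rw [h1]
  simp only [ContinuousLinearMap.coe_restrictScalars']
  rw [h2, map_smul, smul_eq_mul]
  linear_combination (-(1 : ℂ) / 2) * fderiv ℂ g z (Pi.single j 1) * Complex.I_mul_I

theorem fderiv_eq_zero {g : Cm 2 → ℂ} {z : Cm 2} (h : DifferentiableAt ℂ g z)
    (h0 : ∀ j, dz j g z = 0) : fderiv ℂ g z = 0 := by
  ext v
  have h1 : v = ∑ j, v j • (Pi.single j 1 : Cm 2) := by
    funext i
    simp [Finset.sum_apply, Pi.single_apply]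
  rw [h1, map_sum]
  simp only [map_smul, ← dz_eq h, h0, smul_zero, Finset.sum_const_zero,
    _root_.zero_apply]

variable [IsManifold 𝓘(ℂ, Cm 2) ω X]

theorem mfderiv_zero_iff {f : X → ℂ} {y : X} (hf : MDifferentiableAt 𝓘(ℂ, Cm 2) 𝓘(ℂ) f y)
    {e : Chart 2 X} (he : At e y) :
    mfderiv 𝓘(ℂ, Cm 2) 𝓘(ℂ) f y = 0 ↔ ∀ j, dz j (fun z => f (e.symm z)) (e y) = 0 := by
  have : IsManifold 𝓘(ℂ, Cm 2) 1 X := IsManifold.of_le (n := ω) le_top
  have h1 : MDifferentiableAt 𝓘(ℂ, Cm 2) 𝓘(ℂ, Cm 2) e y := mdifferentiableAt_atlas he.1 he.2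
  have h2 : MDifferentiableAt 𝓘(ℂ, Cm 2) 𝓘(ℂ, Cm 2) e.symm (e y) :=
    mdifferentiableAt_atlas_symm he.1 (e.map_source he.2)
  have h3 : e.symm (e y) = y := e.left_inv he.2
  have h4 : MDifferentiableAt 𝓘(ℂ, Cm 2) 𝓘(ℂ) (fun z => f (e.symm z)) (e y) :=
    MDifferentiableAt.comp (e y) (by rw [h3]; exact hf) h2
  have h5 : DifferentiableAt ℂ (fun z => f (e.symm z)) (e y) := h4.differentiableAt
  constructor
  · intro h j
    rw [dz_eq h5]
    have h6 := mfderiv_comp (e y) (by rw [h3]; exact hf : MDifferentiableAt 𝓘(ℂ, Cm 2) 𝓘(ℂ) f (e.symm (e y))) h2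
    have h7 : mfderiv 𝓘(ℂ, Cm 2) 𝓘(ℂ) f (e.symm (e y)) = 0 := by
      rw [h3]; exact h
    rw [h7] at h6
    have h8 : mfderiv 𝓘(ℂ, Cm 2) 𝓘(ℂ) (f ∘ e.symm) (e y) = fderiv ℂ (fun z => f (e.symm z)) (e y) :=
      mfderiv_eq_fderiv
    rw [← h8, h6]
    rfl
  · intro h
    have h6 : f =ᶠ[𝓝 y] (fun z => f (e.symm z)) ∘ e := by
      filter_upwards [e.open_source.mem_nhds he.2] with z hz
      simp [e.left_inv hz]
    rw [h6.mfderiv_eq, mfderiv_comp y h4 h1, mfderiv_eq_fderiv, fderiv_eq_zero h5 h]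
    rfl

theorem isSmoothRational_iff (D : EffDiv X) : IsSmoothRational D ↔ D.IsSmoothRational := by
  unfold IsSmoothRational EffDiv.IsSmoothRational
  refine and_congr ?_ Iff.rfl
  refine forall_congr' fun x => forall_congr' fun y => forall_congr' fun hy =>
    forall_congr' fun h0 => ?_
  have hf : MDifferentiableAt 𝓘(ℂ, Cm 2) 𝓘(ℂ) (D.f x) y :=
    (D.holo x y hy).mdifferentiableAt ((D.isOpen x).mem_nhds hy)
  constructor
  · intro h h1
    obtain ⟨j, hj⟩ := h (chartAt (Cm 2) y) ⟨chart_mem_atlas _ _, mem_chart_source _ _⟩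
    exact hj ((mfderiv_zero_iff hf ⟨chart_mem_atlas _ _, mem_chart_source _ _⟩).1 h1 j)
  · intro h e he
    by_contra hcon
    push Not at hcon
    exact h ((mfderiv_zero_iff hf he).2 hcon)

theorem minimal_iff : Minimal X ↔ Vale.Agent.P267.Minimal X := by
  unfold Minimal Vale.Agent.P267.Minimal
  simp only [isSmoothRational_iff]

theorem isMinimalVII_iff (n : ℕ) : IsMinimalVII X n ↔ Vale.Agent.P267.IsMinimalVII X n := by
  constructor
  · intro h
    exact ⟨(bettiSucc_iff _ _).1 h.b1, (bettiSucc_iff _ _).1 h.b2, h.pos, h.kod,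
      minimal_iff.1 h.min⟩
  · intro h
    exact ⟨(bettiSucc_iff _ _).2 h.b1, (bettiSucc_iff _ _).2 h.b2, h.pos, h.kod,
      minimal_iff.2 h.min⟩

omit [TopologicalSpace X] [ChartedSpace (Cm 2) X] [IsManifold 𝓘(ℂ, Cm 2) ω X] in
theorem mainStatement_iff : MainStatement ↔ Vale.Agent.P267.MainStatement := by
  constructor
  · intro h X _ _ _ _ _ _ n hX
    exact h X n ((isMinimalVII_iff n).2 hX)
  · intro h X _ _ _ _ _ _ n hX
    exact h X n ((isMinimalVII_iff n).1 hX)

omit [TopologicalSpace X] [ChartedSpace (Cm 2) X] [IsManifold 𝓘(ℂ, Cm 2) ω X] in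
theorem curvesStatement_iff : CurvesStatement ↔ Vale.Agent.P267.CurvesStatement := by
  constructor
  · intro h X _ _ _ _ _ _ n hX
    exact h X n ((isMinimalVII_iff n).2 hX)
  · intro h X _ _ _ _ _ _ n hX
    exact h X n ((isMinimalVII_iff n).1 hX)

omit [TopologicalSpace X] [ChartedSpace (Cm 2) X] [IsManifold 𝓘(ℂ, Cm 2) ω X] in
theorem gssConjecture_iff : GSSConjecture ↔ Vale.Agent.P267.GSSConjecture := by
  constructor
  · intro h X _ _ _ _ _ _ n hX
    exact h X n ((isMinimalVII_iff n).2 hX)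
  · intro h X _ _ _ _ _ _ n hX
    exact h X n ((isMinimalVII_iff n).1 hX)

end Vale.Agent.P267.H998
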