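import Vale.Agent.P267.Statement

/-!
# P267: the final statement, in a form which prints in full

Same objects as in `P267/Statement.lean` (real forms `RForm`, their coordinate expressions
`pullForm`, `SmoothForm`, `ExactForm`, `EffDiv`, `P1Map`, `KodairaNegInf`, `HasGSS`), with short
definitions of closed forms, Betti numbers, smooth rational curves and minimality.
-/

open scoped Manifold ContDiff Topology
open Vale.Agent.P272.K

noncomputable section

namespace Vale.Agent.P267.H998

section

variable {X : Type*} [TopologicalSpace X] [ChartedSpace (Cm 2) X]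

/-- A form is closed if its exterior derivative vanishes in every chart of the atlas. -/
def Closed {k : ℕ} (a : RForm k X) : Prop :=
  ∀ e ∈ atlas (Cm 2) X, ∀ z ∈ e.target, extDeriv (pullForm e.symm a) z = 0

/-- The value of the form `a` at the point `x` on the tangent vectors `v`. -/
def val {k : ℕ} (a : RForm k X) (x : X) (v : Fin k → Cm 2) : ℝ := a x v

/-- `c = d + t₁ a₁ + … + tₙ aₙ` at every point. -/
def IsComb {k n : ℕ} (c d : RForm k X) (t : Fin n → ℝ) (a : Fin n → RForm k X) : Prop :=
  ∀ (x : X) (v : Fin k → Cm 2), val c x v = val d x v + ∑ i, t i * val (a i) x v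

/-- `D` is a smooth rational curve: at the zeros of its local equations some partial derivative
`∂/∂z_j` of the equation in a chart does not vanish, and its support is the image of an injective
holomorphic map `ℙ¹ → X`. -/
def IsSmoothRational (D : EffDiv X) : Prop :=
  (∀ x, ∀ y ∈ D.U x, D.f x y = 0 → ∀ e : Chart 2 X, At e y →
    ∃ j, dz j (fun z => D.f x (e.symm z)) (e y) ≠ 0) ∧
    ∃ φ : P1Map X, Function.Injective φ.f₀ ∧ φ.f₁ 0 ∉ Set.range φ.f₀ ∧ D.supp = φ.image

end

/-- The Betti number `b_{k+1}(X)` is `n`: there are `n` closed smooth `(k+1)`-forms such that every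
closed smooth `(k+1)`-form is, with unique coefficients, a real linear combination of them plus an
exact form (so the de Rham cohomology group of degree `k + 1` has dimension `n`). -/
def BettiSucc (X : Type*) [TopologicalSpace X] [ChartedSpace (Cm 2) X] (k n : ℕ) : Prop :=
  ∃ a : Fin n → RForm (k + 1) X, (∀ i, SmoothForm (a i) ∧ Closed (a i)) ∧
    ∀ c : RForm (k + 1) X, SmoothForm c → Closed c →
      ∃! t : Fin n → ℝ, ∃ d : RForm (k + 1) X, ExactForm d ∧ IsComb c d t a

/-- `X` is minimal: it contains no smooth rational curve of self-intersection number `-1`. -/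
def Minimal (X : Type*) [TopologicalSpace X] [ChartedSpace (Cm 2) X] : Prop :=
  ¬ ∃ D : EffDiv X, IsSmoothRational D ∧ D.SelfInt (-1)

/-- The hypotheses: `X` is a minimal compact connected complex surface of class VII (i.e.
`b₁(X) = 1` and `κ(X) = -∞`) with `b₂(X) = n > 0`. -/
structure IsMinimalVII (X : Type*) [TopologicalSpace X] [ChartedSpace (Cm 2) X] (n : ℕ) : Prop where
  b1 : BettiSucc X 0 1
  b2 : BettiSucc X 1 n
  pos : 0 < n
  kod : KodairaNegInf X
  min : Minimal X

/-- **Main statement.** A minimal surface `X` of class VII with `b₂(X) = n > 0` contains a nonzero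
effective divisor of self-intersection number `0`, or it contains `n` distinct rational curves. -/
def MainStatement : Prop :=
  ∀ (X : Type) [TopologicalSpace X] [T2Space X] [CompactSpace X] [ConnectedSpace X]
    [ChartedSpace (Cm 2) X] [IsManifold 𝓘(ℂ, Cm 2) ω X] (n : ℕ), IsMinimalVII X n →
    (∃ D : EffDiv X, D.supp.Nonempty ∧ D.SelfInt 0) ∨
      ∃ C : Fin n → Set X, Function.Injective C ∧ ∀ i, IsRationalCurve (C i)

/-- A minimal surface `X` of class VII with `b₂(X) = n > 0` contains `n` distinct rational
curves. -/
def CurvesStatement : Prop :=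
  ∀ (X : Type) [TopologicalSpace X] [T2Space X] [CompactSpace X] [ConnectedSpace X]
    [ChartedSpace (Cm 2) X] [IsManifold 𝓘(ℂ, Cm 2) ω X] (n : ℕ), IsMinimalVII X n →
      ∃ C : Fin n → Set X, Function.Injective C ∧ ∀ i, IsRationalCurve (C i)

/-- The global spherical shell conjecture. -/
def GSSConjecture : Prop :=
  ∀ (X : Type) [TopologicalSpace X] [T2Space X] [CompactSpace X] [ConnectedSpace X]
    [ChartedSpace (Cm 2) X] [IsManifold 𝓘(ℂ, Cm 2) ω X] (n : ℕ), IsMinimalVII X n → HasGSS X

end Vale.Agent.P267.H998
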